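import Mathlib.Algebra.Algebra.Basic
import Mathlib.Algebra.BigOperators.Group.List.Basic
import Mathlib.Data.Complex.Basic
import Mathlib.Data.List.Perm.Basic
import Mathlib.Tactic

/-!
Truncated functionals on words, abstract algebra: the swap relation, insertion of scalars,
nested commutators.
-/

namespace Vale.Agent.P352.H697

/-- Sum of `F s t` over all ways to split the list into two complementary sublists `s`, `t`. -/
def spl {α M : Type*} [AddCommMonoid M] : (List α → List α → M) → List α → M
  | F, [] => F [] []
  | F, x :: l => spl (fun s t => F (x :: s) t) l + spl (fun s t => F s (x :: t)) l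

/-- The same sum over the splittings with nonempty second part. -/
def prp {α M : Type*} [AddCommMonoid M] : (List α → List α → M) → List α → M
  | _, [] => 0
  | F, x :: l => prp (fun s t => F (x :: s) t) l + spl (fun s t => F s (x :: t)) l

section spl

variable {α M N : Type*} [AddCommMonoid M] [AddCommMonoid N]

theorem spl_nil (F : List α → List α → M) : spl F [] = F [] [] := rfl

theorem spl_cons (F : List α → List α → M) (x : α) (l : List α) :
    spl F (x :: l) = spl (fun s t => F (x :: s) t) l + spl (fun s t => F s (x :: t)) l := rfl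

theorem prp_nil (F : List α → List α → M) : prp F [] = 0 := rfl

theorem prp_cons (F : List α → List α → M) (x : α) (l : List α) :
    prp F (x :: l) = prp (fun s t => F (x :: s) t) l + spl (fun s t => F s (x :: t)) l := rfl

theorem spl_eq (F : List α → List α → M) (l : List α) : spl F l = F l [] + prp F l := by
  induction l generalizing F with
  | nil => simp [spl_nil, prp_nil]
  | cons x l ih => rw [spl_cons, prp_cons, ih, add_assoc]

theorem spl_congr {F G : List α → List α → M} {l : List α}
    (h : ∀ s t, s.length ≤ l.length → t.length ≤ l.length → F s t = G s t) :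
    spl F l = spl G l := by
  induction l generalizing F G with
  | nil => exact h [] [] le_rfl le_rfl
  | cons x l ih =>
    rw [spl_cons, spl_cons]
    congr 1
    · exact ih fun s t hs ht => h _ _ (by simpa using hs) (by simp; omega)
    · exact ih fun s t hs ht => h _ _ (by simp; omega) (by simpa using ht)

theorem prp_congr {F G : List α → List α → M} {l : List α}
    (h : ∀ s t, s.length < l.length → t.length ≤ l.length → F s t = G s t) :
    prp F l = prp G l := by
  induction l generalizing F G with
  | nil => rfl
  | cons x l ih =>
    rw [prp_cons, prp_cons]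
    congr 1
    · exact ih fun s t hs ht => h _ _ (by simpa using hs) (by simp; omega)
    · exact spl_congr fun s t hs ht => h _ _ (by simp; omega) (by simpa using ht)

theorem spl_add (F G : List α → List α → M) (l : List α) :
    spl (fun s t => F s t + G s t) l = spl F l + spl G l := by
  induction l generalizing F G with
  | nil => rfl
  | cons x l ih => rw [spl_cons, spl_cons, spl_cons, ih, ih, add_add_add_comm]

theorem spl_sub {M : Type*} [AddCommGroup M] (F G : List α → List α → M) (l : List α) :
    spl (fun s t => F s t - G s t) l = spl F l - spl G l := by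
  induction l generalizing F G with
  | nil => rfl
  | cons x l ih => rw [spl_cons, spl_cons, spl_cons, ih, ih, add_sub_add_comm]

theorem spl_zero (l : List α) : spl (fun _ _ => (0 : M)) l = 0 := by
  induction l with
  | nil => rfl
  | cons x l ih => rw [spl_cons, ih, add_zero]

theorem prp_zero (l : List α) : prp (fun _ _ => (0 : M)) l = 0 := by
  induction l with
  | nil => rfl
  | cons x l ih => rw [prp_cons, ih, spl_zero, add_zero]

theorem spl_map (φ : M →+ N) (F : List α → List α → M) (l : List α) :
    spl (fun s t => φ (F s t)) l = φ (spl F l) := by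
  induction l generalizing F with
  | nil => rfl
  | cons x l ih => rw [spl_cons, spl_cons, map_add, ih, ih]

theorem prp_map (φ : M →+ N) (F : List α → List α → M) (l : List α) :
    prp (fun s t => φ (F s t)) l = φ (prp F l) := by
  induction l generalizing F with
  | nil => exact (map_zero φ).symm
  | cons x l ih => rw [prp_cons, prp_cons, map_add, ih, spl_map]

theorem spl_append (F : List α → List α → M) (l l' : List α) :
    spl F (l ++ l') = spl (fun s t => spl (fun u v => F (s ++ u) (t ++ v)) l') l := by
  induction l generalizing F with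
  | nil => simp [spl_nil]
  | cons x l ih => simp only [List.cons_append, spl_cons, ih]

/-- Three way splittings are symmetric. -/
theorem spl_comm (F : List α → List α → List α → M) (l : List α) :
    spl (fun s t => spl (fun u v => F s u v) t) l =
      spl (fun u t => spl (fun s v => F s u v) t) l := by
  induction l generalizing F with
  | nil => rfl
  | cons x l ih =>
    simp only [spl_cons, spl_add]
    rw [ih, ih (fun s u v => F s (x :: u) v), ih (fun s u v => F s u (x :: v))]
    abel

/-- Only the full first part contributes. -/
theorem spl_top {F : List α → List α → M} {l : List α}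
    (h : ∀ s t, s.length < l.length → F s t = 0) : spl F l = F l [] := by
  rw [spl_eq, prp_congr (G := fun _ _ => 0) fun s t hs _ => h s t hs, prp_zero, add_zero]

end spl

section trunc

variable {R : Type*} [Ring R] [Algebra ℂ R] {ω : R →ₗ[ℂ] ℂ} {K : List R → ℂ}

/-- `K` are the truncated functions of `ω`. -/
def IsTr (ω : R →ₗ[ℂ] ℂ) (K : List R → ℂ) : Prop :=
  ∀ a l, ω (a :: l).prod = spl (fun s t => K (a :: s) * ω t.prod) l

theorem IsTr.head_eq (hK : IsTr ω K) (h1 : ω 1 = 1) (a : R) (l : List R) :
    K (a :: l) = ω (a :: l).prod - prp (fun s t => K (a :: s) * ω t.prod) l := by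
  rw [hK a l, spl_eq]
  simp [h1]

theorem IsTr.single (hK : IsTr ω K) (h1 : ω 1 = 1) (a : R) : K [a] = ω a := by
  rw [hK.head_eq h1, prp_nil]; simp

theorem IsTr.pair (hK : IsTr ω K) (h1 : ω 1 = 1) (a b : R) : K [a, b] = ω (a * b) - ω a * ω b := by
  rw [hK.head_eq h1, prp_cons, prp_nil, spl_nil, hK.single h1]; simp

/-- general principle: a combination of truncated functions vanishes if the corresponding
combination of the full functions does. -/
theorem top_zero {α : Type*} {D : List α → List α → ℂ} {c : List α → List α → ℂ}
    (hc : c [] [] = 1) {n : ℕ}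
    (h : ∀ p q, p.length + q.length = n →
      spl (fun s t => spl (fun u v => D (s) (u) * c t v) q) p = 0)
    (hlt : ∀ p q, p.length + q.length < n → D p q = 0) :
    ∀ p q, p.length + q.length = n → D p q = 0 := by
  intro p q hpq
  have h0 := h p q hpq
  rw [spl_top] at h0
  · rw [spl_top] at h0
    · simpa [hc] using h0
    · intro u v hu
      rw [hlt _ _ (by omega), zero_mul]
  · intro s t hs
    have : spl (fun u v => D s u * c t v) q = spl (fun _ _ => (0 : ℂ)) q :=
      spl_congr fun u v hu _ => by rw [hlt _ _ (by omega), zero_mul]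
    rw [this, spl_zero]

/-- swap relation, the head is not touched -/
theorem IsTr.swap_cons (hK : IsTr ω K) (h1 : ω 1 = 1) (c a b : R) (p q : List R) :
    K (c :: (p ++ a :: b :: q)) - K (c :: (p ++ b :: a :: q)) -
      K (c :: (p ++ (a * b - b * a) :: q)) = 0 := by
  obtain ⟨n, hn⟩ : ∃ n, p.length + q.length = n := ⟨_, rfl⟩
  induction n using Nat.strong_induction_on generalizing p q with
  | _ n ih =>
    refine top_zero (c := fun t v => ω (t ++ v).prod)
      (D := fun p q => K (c :: (p ++ a :: b :: q)) - K (c :: (p ++ b :: a :: q)) -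
      K (c :: (p ++ (a * b - b * a) :: q))) (by simpa using h1) (n := n) ?_
      (fun p q hpq => ih _ hpq p q rfl) p q hn
    intro p q _
    have e1 := hK c (p ++ a :: b :: q)
    have e2 := hK c (p ++ b :: a :: q)
    have e3 := hK c (p ++ (a * b - b * a) :: q)
    have e4 : ω (c :: (p ++ a :: b :: q)).prod - ω (c :: (p ++ b :: a :: q)).prod -
        ω (c :: (p ++ (a * b - b * a) :: q)).prod = 0 := by
      rw [← map_sub, ← map_sub]
      simp only [List.prod_cons, List.prod_append]
      rw [show c * (p.prod * (a * (b * q.prod))) - c * (p.prod * (b * (a * q.prod))) -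
        c * (p.prod * ((a * b - b * a) * q.prod)) = 0 by noncomm_ring, map_zero]
    rw [e1, e2, e3] at e4
    simp only [spl_append, spl_cons] at e4
    rw [← e4]
    simp only [← spl_add, ← spl_sub]
    refine spl_congr fun s t _ _ => spl_congr fun u v _ _ => ?_
    have hω : ω (t ++ a :: b :: v).prod = ω (t ++ b :: a :: v).prod +
        ω (t ++ (a * b - b * a) :: v).prod := by
      rw [← map_add]
      simp only [List.prod_cons, List.prod_append]
      congr 1
      noncomm_ring
    rw [hω]
    ring

/-- insertion of zero or of a scalar, the head is not touched -/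
theorem IsTr.scalar_cons (hK : IsTr ω K) (h1 : ω 1 = 1) (c : R) (z : ℂ) (p q : List R) :
    K (c :: (p ++ (algebraMap ℂ R z) :: q)) = 0 := by
  obtain ⟨n, hn⟩ : ∃ n, p.length + q.length = n := ⟨_, rfl⟩
  induction n using Nat.strong_induction_on generalizing p q with
  | _ n ih =>
    refine top_zero (c := fun t v => ω (t ++ v).prod)
      (D := fun p q => K (c :: (p ++ (algebraMap ℂ R z) :: q))) (by simpa using h1) (n := n) ?_
      (fun p q hpq => ih _ hpq p q rfl) p q hn
    intro p q _
    have hz : ∀ s t : List R, ω (s ++ (algebraMap ℂ R z) :: t).prod = z * ω (s ++ t).prod := by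
      intro s t
      rw [List.prod_append, List.prod_cons, List.prod_append, ← mul_assoc,
        ← Algebra.commutes z s.prod, mul_assoc, ← Algebra.smul_def, map_smul, smul_eq_mul]
    have e1 := hK c (p ++ (algebraMap ℂ R z) :: q)
    have e2 := hK c (p ++ q)
    have e4 : ω (c :: (p ++ (algebraMap ℂ R z) :: q)).prod - z * ω (c :: (p ++ q)).prod = 0 := by
      have := hz (c :: p) q
      rw [List.cons_append, List.cons_append] at this
      rw [this, sub_self]
    rw [e1, e2] at e4
    rw [spl_append, spl_append] at e4
    simp only [spl_cons] at e4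
    rw [← e4, spl_add, add_sub_assoc]
    symm
    rw [add_eq_left, sub_eq_zero]
    have := spl_map (AddMonoidHom.mulLeft z)
      (fun s t => spl (fun u v => K (c :: (s ++ u)) * ω (t ++ v).prod) q) p
    rw [AddMonoidHom.coe_mulLeft] at this
    rw [← this]
    refine spl_congr fun s t _ _ => ?_
    have := spl_map (AddMonoidHom.mulLeft z)
      (fun u v => K (c :: (s ++ u)) * ω (t ++ v).prod) q
    rw [AddMonoidHom.coe_mulLeft] at this
    rw [← this]
    refine spl_congr fun u v _ _ => ?_
    rw [hz]
    ring

theorem IsTr.zero_head (hK : IsTr ω K) (h1 : ω 1 = 1) (l : List R) : K (0 :: l) = 0 := by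
  obtain ⟨n, hn⟩ : ∃ n, l.length = n := ⟨_, rfl⟩
  induction n using Nat.strong_induction_on generalizing l with
  | _ n ih =>
    rw [hK.head_eq h1, prp_congr (G := fun _ _ => 0), prp_zero]
    · simp
    · intro s t hs _
      rw [ih _ (by omega) s rfl, zero_mul]

/-- swap relation at the head -/
theorem IsTr.swap_head (hK : IsTr ω K) (h1 : ω 1 = 1) (a b : R) (q : List R) :
    K (a :: b :: q) - K (b :: a :: q) - K ((a * b - b * a) :: q) = 0 := by
  obtain ⟨n, hn⟩ : ∃ n, q.length = n := ⟨_, rfl⟩
  induction n using Nat.strong_induction_on generalizing q with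
  | _ n ih =>
    have e1 := hK a (b :: q)
    have e2 := hK b (a :: q)
    have e3 := hK (a * b - b * a) q
    have e4 : ω (a :: b :: q).prod - ω (b :: a :: q).prod - ω ((a * b - b * a) :: q).prod = 0 := by
      rw [← map_sub, ← map_sub]
      simp only [List.prod_cons]
      rw [show a * (b * q.prod) - b * (a * q.prod) - (a * b - b * a) * q.prod = 0 by noncomm_ring,
        map_zero]
    rw [e1, e2, e3, spl_cons, spl_cons] at e4
    have hx : spl (fun s t => K (a :: s) * ω (b :: t).prod) q =
        spl (fun s t => K (b :: s) * ω (a :: t).prod) q := by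
      have h2 : ∀ a b : R, spl (fun s t => K (a :: s) * ω (b :: t).prod) q =
          spl (fun s t => spl (fun u v => K (a :: s) * K (b :: u) * ω v.prod) t) q := by
        intro a b
        refine spl_congr fun s t _ _ => ?_
        rw [hK b t]
        have := spl_map (AddMonoidHom.mulLeft (K (a :: s)))
          (fun u v => K (b :: u) * ω v.prod) t
        rw [AddMonoidHom.coe_mulLeft] at this
        rw [← this]
        exact spl_congr fun u v _ _ => by ring
      rw [h2, h2, spl_comm]
      exact spl_congr fun s t _ _ => spl_congr fun u v _ _ => by ring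
    rw [hx] at e4
    have e5 : spl (fun s t => (K (a :: b :: s) - K (b :: a :: s) - K ((a * b - b * a) :: s)) *
        ω t.prod) q = 0 := by
      rw [← e4]
      simp only [sub_mul, spl_sub]
      ring
    rw [spl_top fun s t hs => by rw [ih _ (by omega) s rfl, zero_mul]] at e5
    simpa [h1] using e5

/-- the swap relation -/
theorem IsTr.swap (hK : IsTr ω K) (h1 : ω 1 = 1) (p : List R) (a b : R) (q : List R) :
    K (p ++ a :: b :: q) = K (p ++ b :: a :: q) + K (p ++ (a * b - b * a) :: q) := by
  cases p with
  | nil => simpa [sub_sub, sub_eq_zero] using hK.swap_head h1 a b q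
  | cons c p => simpa [sub_sub, sub_eq_zero] using hK.swap_cons h1 c a b p q

/-- insertion of a scalar -/
theorem IsTr.scalar (hK : IsTr ω K) (h1 : ω 1 = 1) (z : ℂ) (p q : List R) (h : p ++ q ≠ []) :
    K (p ++ (algebraMap ℂ R z) :: q) = 0 := by
  cases p with
  | cons c p => exact hK.scalar_cons h1 c z p q
  | nil =>
    cases q with
    | nil => simp at h
    | cons b q =>
      have h2 := hK.swap h1 [] (algebraMap ℂ R z) b q
      rw [Algebra.commutes, sub_self] at h2
      rw [h2]
      have h3 := hK.scalar_cons h1 b z [] q
      rw [List.nil_append] at h3 ⊢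
      rw [h3, zero_add]
      exact hK.zero_head h1 q

/-- dependence on the first entry -/
theorem IsTr.exists_first (hK : IsTr ω K) (h1 : ω 1 = 1) (l : List R) :
    ∃ z : R, ∀ x, K (x :: l) = ω (x * z) := by
  obtain ⟨n, hn⟩ : ∃ n, l.length = n := ⟨_, rfl⟩
  induction n using Nat.strong_induction_on generalizing l with
  | _ n ih =>
    choose! z hz using fun (s : List R) (hs : s.length < l.length) => ih s.length (by omega) s rfl
    refine ⟨l.prod - prp (fun s t => ω t.prod • z s) l, fun x => ?_⟩
    rw [hK.head_eq h1, mul_sub, map_sub, List.prod_cons]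
    congr 1
    have := prp_map (ω.toAddMonoidHom.comp (AddMonoidHom.mulLeft x))
      (fun s t : List R => ω t.prod • z s) l
    simp only [AddMonoidHom.comp_apply, AddMonoidHom.coe_mulLeft,
      LinearMap.toAddMonoidHom_coe] at this
    rw [← this]
    refine prp_congr fun s t hs _ => ?_
    rw [hz s hs x, mul_smul_comm, map_smul, smul_eq_mul, mul_comm]

/-- dependence on the last entry -/
theorem IsTr.exists_last (hK : IsTr ω K) (h1 : ω 1 = 1) (l : List R) :
    ∃ z : R, ∀ x, K (l ++ [x]) = ω (z * x) := by
  obtain ⟨n, hn⟩ : ∃ n, l.length = n := ⟨_, rfl⟩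
  induction n using Nat.strong_induction_on generalizing l with
  | _ n ih =>
    cases l with
    | nil => exact ⟨1, fun x => by simpa using hK.single h1 x⟩
    | cons a l =>
      choose! z hz using fun (s : List R) (hs : s.length < l.length) =>
        ih (s.length + 1) (by simp at hn; omega) (a :: s) rfl
      refine ⟨(a :: l).prod - spl (fun s t => K (a :: s) • t.prod) l -
        prp (fun s t => ω t.prod • z s) l, fun x => ?_⟩
      have e := hK a (l ++ [x])
      rw [spl_append] at e
      simp only [spl_cons, spl_nil, spl_add, List.append_nil] at e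
      rw [spl_eq (fun s t => K (a :: (s ++ [x])) * ω t.prod)] at e
      simp only [List.prod_nil, h1, mul_one] at e
      rw [sub_mul, sub_mul, map_sub, map_sub]
      have e1 : ω ((a :: l).prod * x) = ω (a :: (l ++ [x])).prod := by
        simp [mul_assoc]
      have e2 : ω (spl (fun s t => K (a :: s) • t.prod) l * x) =
          spl (fun s t => K (a :: s) * ω (t ++ [x]).prod) l := by
        have := spl_map (ω.toAddMonoidHom.comp (AddMonoidHom.mulRight x))
          (fun s t => K (a :: s) • t.prod) l
        simp only [AddMonoidHom.comp_apply, AddMonoidHom.coe_mulRight,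
          LinearMap.toAddMonoidHom_coe] at this
        rw [← this]
        refine spl_congr fun s t _ _ => ?_
        rw [smul_mul_assoc, map_smul, smul_eq_mul, List.prod_append, List.prod_singleton]
      have e3 : ω (prp (fun s t => ω t.prod • z s) l * x) =
          prp (fun s t => K (a :: (s ++ [x])) * ω t.prod) l := by
        have := prp_map (ω.toAddMonoidHom.comp (AddMonoidHom.mulRight x))
          (fun s t : List R => ω t.prod • z s) l
        simp only [AddMonoidHom.comp_apply, AddMonoidHom.coe_mulRight,
          LinearMap.toAddMonoidHom_coe] at this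
        rw [← this]
        refine prp_congr fun s t hs _ => ?_
        rw [smul_mul_assoc, map_smul, smul_eq_mul, ← hz s hs x, mul_comm, List.cons_append]
      rw [e1, e2, e3, e, List.cons_append]
      ring

/-- iterated commutators of order `n` of elements of `S` -/
inductive IsNest (S : Set R) : ℕ → R → Prop
  | base {a : R} : a ∈ S → IsNest S 1 a
  | left {n : ℕ} {a x : R} : a ∈ S → IsNest S n x → IsNest S (n + 1) (a * x - x * a)
  | right {n : ℕ} {a x : R} : a ∈ S → IsNest S n x → IsNest S (n + 1) (x * a - a * x)

theorem IsTr.nest_zero (hK : IsTr ω K) (h1 : ω 1 = 1) {S : Set R} {n : ℕ} {x : R}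
    (hx : IsNest S n x) (p q : List R)
    (h : ∀ l' : List R, l'.length = n → (∀ a ∈ l', a ∈ S) → K (p ++ l' ++ q) = 0) :
    K (p ++ x :: q) = 0 := by
  induction hx generalizing p q with
  | @base a ha => simpa using h [a] rfl (by simpa using ha)
  | @left n a x ha hx ih =>
    have h2 := hK.swap h1 p a x q
    have h3 := ih (p ++ [a]) q fun l' hl' hS => by
      have := h (a :: l') (by simp [hl']) (by simpa using ⟨ha, hS⟩)
      simpa using this
    have h4 := ih p (a :: q) fun l' hl' hS => by
      have := h (l' ++ [a]) (by simp [hl']) (by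
        intro b hb
        rcases List.mem_append.1 hb with hb | hb
        · exact hS b hb
        · rw [List.mem_singleton.1 hb]; exact ha)
      simpa using this
    rw [show p ++ [a] ++ x :: q = p ++ a :: x :: q by simp] at h3
    rw [h3, h4, zero_add] at h2
    exact h2.symm
  | @right n a x ha hx ih =>
    have h2 := hK.swap h1 p x a q
    have h3 := ih (p ++ [a]) q fun l' hl' hS => by
      have := h (a :: l') (by simp [hl']) (by simpa using ⟨ha, hS⟩)
      simpa using this
    have h4 := ih p (a :: q) fun l' hl' hS => by
      have := h (l' ++ [a]) (by simp [hl']) (by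
        intro b hb
        rcases List.mem_append.1 hb with hb | hb
        · exact hS b hb
        · rw [List.mem_singleton.1 hb]; exact ha)
      simpa using this
    rw [show p ++ [a] ++ x :: q = p ++ a :: x :: q by simp] at h3
    rw [h3, h4, zero_add] at h2
    exact h2.symm

/-- an operator whose commutators with the entries are scalars can be moved to the end -/
theorem IsTr.move (hK : IsTr ω K) (h1 : ω 1 = 1) (x : R) (p q : List R)
    (hlen : 2 ≤ p.length + q.length) (h : ∀ a ∈ q, ∃ z : ℂ, x * a - a * x = algebraMap ℂ R z) :
    K (p ++ x :: q) = K (p ++ q ++ [x]) := by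
  induction q generalizing p with
  | nil => simp
  | cons a q ih =>
    obtain ⟨z, hz⟩ := h a (by simp)
    rw [hK.swap h1 p x a q, hz, hK.scalar h1 z p q (by
      intro h0
      have := congrArg List.length h0
      simp only [List.length_append, List.length_nil, List.length_cons] at this hlen
      omega), add_zero]
    have := ih (p ++ [a]) (by simp at hlen ⊢; omega) fun b hb => h b (by simp [hb])
    simpa using this

/-- The structure used in the abstract form of Baumann's theorem: `S` = the smeared fields,
`st` = adjoint, `α` = translations. -/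
structure Sys (ω : R →ₗ[ℂ] ℂ) (S : Set R) {V : Type*} [Zero V] (st : R → R) (α : V → R → R) :
    Prop where
  one : ω 1 = 1
  st_nest : ∀ n x, IsNest S n x → IsNest S n (st x)
  al_nest : ∀ n x a, IsNest S n x → IsNest S n (α a x)
  al_zero : ∀ x, α 0 x = x
  /-- separating property of the vacuum -/
  sep : ∀ n x, IsNest S n x → ω (st x * x) = ω (st x) * ω x → ∃ z : ℂ, x = algebraMap ℂ R z
  /-- consequence of the spectrum condition and the uniqueness of the vacuum -/
  spec : ∀ x z z' : R, (∀ a, ω (α a x * z) = ω (z' * α a x)) → ω (x * z) = ω x * ω z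

variable {S : Set R} {V : Type*} [Zero V] {st : R → R} {α : V → R → R}

theorem Sys.zero_of_scalar (H : Sys ω S st α) (hK : IsTr ω K) {n : ℕ}
    (hn : ∀ x, IsNest S n x → ∀ a ∈ S, ∃ z : ℂ, x * a - a * x = algebraMap ℂ R z) {x : R}
    (hx : IsNest S n x) {l : List R} (hl : 2 ≤ l.length) (hS : ∀ a ∈ l, a ∈ S) :
    K (x :: l) = 0 := by
  obtain ⟨z, hz⟩ := hK.exists_first H.one l
  obtain ⟨z', hz'⟩ := hK.exists_last H.one l
  have hz1 : ω z = 0 := by
    have h1 := hz 1
    rw [one_mul] at h1
    rw [← h1]
    have h2 := hK.scalar H.one 1 [] l (by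
      intro h0
      rw [List.nil_append] at h0
      rw [h0] at hl
      simp at hl)
    rwa [map_one] at h2
  rw [hz x, H.spec x z z', hz1, mul_zero]
  intro a
  rw [← hz, ← hz']
  have := hK.move H.one (α a x) [] l (by simpa using hl) fun b hb =>
    hn _ (H.al_nest n x a hx) b (hS b hb)
  simpa using this

theorem Sys.scalar_of (H : Sys ω S st α) (hK : IsTr ω K) {n : ℕ} {x : R} (hx : IsNest S n x)
    (h : ∀ l : List R, l.length = n → (∀ a ∈ l, a ∈ S) → K (st x :: l) = 0) :
    ∃ z : ℂ, x = algebraMap ℂ R z := by
  refine H.sep n x hx ?_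
  have h2 := hK.nest_zero H.one hx [st x] [] fun l' hl' hS => by
    simpa using h l' hl' hS
  rw [List.singleton_append, hK.pair H.one, sub_eq_zero] at h2
  exact h2

/-- **Baumann's theorem**, abstract form. -/
theorem Sys.baumann (H : Sys ω S st α) (hK : IsTr ω K) {m : ℕ} (hm : 2 ≤ m)
    (h0 : ∀ l : List R, l.length = 2 * m → (∀ a ∈ l, a ∈ S) → K l = 0) {l : List R}
    (hl : 3 ≤ l.length) (hS : ∀ a ∈ l, a ∈ S) : K l = 0 := by
  -- all iterated commutators of order `j`, `2 ≤ j ≤ m`, are scalars
  have key : ∀ i j, 2 ≤ j → j + i = m → ∀ x, IsNest S j x → ∃ z : ℂ, x = algebraMap ℂ R z := by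
    intro i
    induction i with
    | zero =>
      intro j _ hj x hx
      rw [add_zero] at hj
      subst hj
      refine H.scalar_of hK hx fun l hl hS => ?_
      have := hK.nest_zero H.one (H.st_nest _ _ hx) [] l fun l' hl' hS' => by
        refine h0 _ (by simp [hl, hl']; omega) fun a ha => ?_
        rcases List.mem_append.1 ha with ha | ha
        · exact hS' a (by simpa using ha)
        · exact hS a ha
      simpa using this
    | succ i ih =>
      intro j h2 hj x hx
      have hc : ∀ y, IsNest S j y → ∀ a ∈ S, ∃ z : ℂ, y * a - a * y = algebraMap ℂ R z :=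
        fun y hy a ha => ih (j + 1) (by omega) (by omega) _ (IsNest.right ha hy)
      refine H.scalar_of hK hx fun l hl hS => ?_
      exact H.zero_of_scalar hK hc (H.st_nest _ _ hx) (by omega) hS
  cases l with
  | nil => simp at hl
  | cons x l =>
    have hx : IsNest S 1 x := IsNest.base (hS x (by simp))
    refine H.zero_of_scalar hK (n := 1) (fun y hy a ha => ?_) hx (by simp at hl; omega)
      fun a ha => hS a (by simp [ha])
    exact key (m - 2) 2 le_rfl (by omega) _ (IsNest.right ha hy)

end trunc

end Vale.Agent.P352.H697
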